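import Vale.Agent.P150.Mix

/-! The mixing bound of `Mix` from a single start of moderate weight. -/

namespace Vale.Agent.P150

open Finset Function Mx

variable {n : ℕ} {w : Cfg n → ℝ}

theorem step' (hw : ∀ x, 0 < w x) {C D : ℝ} (hC : 1 ≤ C)
    (hE : ∀ f, (∀ x, 0 < f x) → Ent w f ≤ C * Loc w f) 
    {B : Matrix (Cfg n) (Cfg n) ℝ} (hB : ∀ f, B.mulVec f = St w f) (k : ℕ) (x : Cfg n)
    (hD : ∑ y, w y ≤ Real.exp D * w x) :
    ∑ y, |(B ^ k) x y - (n + 1) ^ k * (w y / ∑ z, w z)| ≤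
      4 * √D * (n + 1 - 1 / (2 * C)) ^ k := by
  have hZ := Zpos hw
  have hx := hw x
  have hxZ : w x ≤ ∑ z, w z := single_le_sum (fun z _ => (hw z).le) (mem_univ x)
  have hD0 : 0 ≤ D := by
    by_contra h
    have := Real.exp_lt_one_iff.2 (not_le.1 h)
    nlinarith
  generalize hZ' : ∑ z, w z = Z at hZ hxZ hD ⊢
  obtain ⟨f, hf⟩ : ∃ f : Cfg n → ℝ, f = (fun _ => w x / Z) + Pi.single x 1 := ⟨_, rfl⟩
  have hs : ∀ y, (0 : ℝ) ≤ (Pi.single x 1 : Cfg n → ℝ) y ∧ (Pi.single x 1 : Cfg n → ℝ) y ≤ 1 :=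
    fun y => by rw [Pi.single_apply]; split_ifs <;> norm_num
  have f0 : ∀ y, 0 < f y := fun y => by
    rw [hf]; exact add_pos_of_pos_of_nonneg (by positivity) (hs y).1
  have f1 : ∑ y, w y * f y = 2 * w x := by
    simp only [hf, Pi.add_apply, mul_add, sum_add_distrib, ← sum_mul, hZ', Pi.single_apply,
      mul_ite, mul_one, mul_zero, sum_ite_eq', mem_univ, if_true]
    field_simp
    ring
  have f2 : Ent w f ≤ D * (2 * w x) := by
    rw [Ent, f1, hZ', ← f1, mul_sum]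
    refine sum_le_sum fun y _ => ?_
    rw [mul_comm D, f1]
    refine mul_le_mul_of_nonneg_left ?_ (mul_pos (hw y) (f0 y)).le
    rw [Real.log_le_iff_le_exp (div_pos (f0 y) (by positivity)), div_le_iff₀ (by positivity)]
    have h1 : f y ≤ w x / Z + 1 := by rw [hf]; exact add_le_add le_rfl (hs y).2
    have h2 : w x / Z ≤ 1 := (div_le_one hZ).2 hxZ
    have h3 : 1 ≤ Real.exp D * (w x / Z) := by
      rw [← mul_div_assoc, one_le_div hZ]; exact hD
    rw [mul_div_assoc]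
    linarith
  obtain ⟨g0, g1, g2⟩ := iter hw hC hE f0 k
  have g3 : ∀ y, w y * |(St w)^[k] f y - (n + 1) ^ k * (2 * w x / Z)| =
      w x * |(B ^ k) x y - (n + 1) ^ k * (w y / Z)| := by
    intro y
    have h1 := iter_sa hw k (Pi.single x 1) (Pi.single y 1)
    rw [← pow_vec hB, ← pow_vec hB] at h1
    simp only [Pi.single_apply, mul_ite, ite_mul, mul_one, mul_zero, zero_mul, sum_ite_eq',
      mem_univ, if_true, Matrix.mulVec_single_one, Matrix.col_apply] at h1
    have h2 : (St w)^[k] f y = (n + 1) ^ k * (w x / Z) + (B ^ k) y x := by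
      rw [← pow_vec hB, hf, Matrix.mulVec_add, pow_vec hB, iter_one hw]
      simp
    rw [← abs_of_pos (hw y), ← abs_of_pos hx, ← abs_mul, ← abs_mul, abs_of_pos (hw y),
      abs_of_pos hx, h2, mul_sub, mul_add, h1]
    congr 1
    ring
  have g4 := tv_sq hw g0 (c := (n + 1) ^ k * (2 * w x / Z)) (by rw [g1, f1, hZ']; ring)
  simp only [g3, ← mul_sum] at g4
  have h6 : 1 / C ≤ 1 := by rw [div_le_one (by linarith)]; exact hC
  have h7 : (0 : ℝ) ≤ n + 1 - 1 / C := by have := Nat.cast_nonneg (α := ℝ) n; linarith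
  have h8 : 1 / (2 * C) = 1 / C / 2 := by field_simp
  have h9 : 0 ≤ 1 / C := by positivity
  have g5 : (n + 1 - 1 / C) ^ k * (n + 1) ^ k ≤ ((n + 1 - 1 / (2 * C)) ^ k) ^ 2 := by
    rw [← mul_pow, ← pow_mul, mul_comm k, pow_mul]
    refine pow_le_pow_left₀ (by positivity) ?_ k
    rw [h8]
    nlinarith [sq_nonneg (1 / C)]
  refine le_of_mul_le_mul_left (abs_le_of_sq_le_sq' (g4.trans ?_)
    (mul_nonneg hx.le (mul_nonneg (by positivity) (pow_nonneg (by linarith) k)))).2 hx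
  rw [g1, f1]
  have g6 := g2.trans (mul_le_mul_of_nonneg_left f2 (pow_nonneg h7 k))
  calc _ ≤ (n + 1 - 1 / C) ^ k * (D * (2 * w x)) * (4 * ((n + 1) ^ k * (2 * w x))) :=
        mul_le_mul_of_nonneg_right g6 (by positivity)
    _ = (n + 1 - 1 / C) ^ k * (n + 1) ^ k * (16 * D * w x ^ 2) := by ring
    _ ≤ ((n + 1 - 1 / (2 * C)) ^ k) ^ 2 * (16 * D * w x ^ 2) :=
        mul_le_mul_of_nonneg_right g5 (by positivity)
    _ = _ := by rw [mul_pow, mul_pow, mul_pow, Real.sq_sqrt hD0]; ring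

theorem mix' {L : Matrix (Cfg n) (Cfg n) ℝ} {C D t : ℝ} (hw : ∀ x, 0 < w x) (hC : 1 ≤ C)
    (hL : ∀ f, L.mulVec f = fun x => ∑ i, (Q w i f x - f x))
    (hE : ∀ f, (∀ x, 0 < f x) → Ent w f ≤ C * Loc w f) (ht : 0 ≤ t) (x : Cfg n)
    (hD : ∑ y, w y ≤ Real.exp D * w x) : ∑ y, |NormedSpace.exp (t • L) x y - w y / ∑ z, w z| ≤
      4 * √D * Real.exp (-(t / (2 * C))) := by
  have hB : ∀ f, (L + ((n : ℝ) + 1) • 1).mulVec f = St w f := fun f => by
    funext y
    rw [Matrix.add_mulVec, hL, Matrix.smul_mulVec, Matrix.one_mulVec]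
    simp only [St, Pi.add_apply, Pi.smul_apply, sum_sub_distrib, sum_const, card_univ,
      Fintype.card_fin, nsmul_eq_mul, smul_eq_mul]
    ring
  generalize hB' : L + ((n : ℝ) + 1) • 1 = B at hB
  have h1 : NormedSpace.exp (t • B) = Real.exp (t * (n + 1)) • NormedSpace.exp (t • L) := by
    rw [← hB', smul_add, smul_smul, exp_shift]
  have h2 : ∀ y, HasSum (fun k : ℕ => (k.factorial : ℝ)⁻¹ * t ^ k *
      ((B ^ k) x y - (n + 1) ^ k * (w y / ∑ z, w z)))
      (Real.exp (t * (n + 1)) * (NormedSpace.exp (t • L) x y - w y / ∑ z, w z)) := fun y => by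
    have h3 := (exp_ent (t • B) x y).sub ((exp_re (t * (n + 1))).mul_right (w y / ∑ z, w z))
    rw [h1, Matrix.smul_apply, smul_eq_mul, ← mul_sub] at h3
    refine h3.congr_fun fun k => ?_
    rw [smul_pow, Matrix.smul_apply, smul_eq_mul, mul_pow]
    ring
  have h3 := hasSum_sum (s := univ) fun y _ => (h2 y).mul_left (SignType.sign
    (NormedSpace.exp (t • L) x y - w y / ∑ z, w z) : ℝ)
  have h4 := hasSum_le (fun k => ?_) h3 ((exp_re (t * (n + 1 - 1 / (2 * C)))).mul_left (4 * √D))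
  · have h5 : t * (n + 1 - 1 / (2 * C)) = t * (n + 1) + -(t / (2 * C)) := by ring
    simp only [mul_left_comm _ (Real.exp _), sign_mul_self, ← mul_sum] at h4
    rw [h5, Real.exp_add, mul_left_comm] at h4
    exact le_of_mul_le_mul_left h4 (Real.exp_pos _)
  have h5 := mul_le_mul_of_nonneg_left (step' hw hC hE hB k x hD)
    (show 0 ≤ (k.factorial : ℝ)⁻¹ * t ^ k by positivity)
  rw [mul_sum] at h5
  refine (sum_le_sum fun y _ => ?_).trans (h5.trans_eq (by rw [mul_pow]; ring))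
  rw [mul_left_comm]
  refine mul_le_mul_of_nonneg_left ((le_abs_self _).trans ?_) (by positivity)
  rw [abs_mul]
  refine mul_le_of_le_one_left (abs_nonneg _) ?_
  rcases SignType.trichotomy (SignType.sign (NormedSpace.exp (t • L) x y - w y / ∑ z, w z))
    with h | h | h <;> simp [h]

end Vale.Agent.P150
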